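import Vale.Agent.P235.V25.F0
import Vale.Agent.P235.V25.F1
import Vale.Agent.P235.V25.F2
import Vale.Agent.P235.V25.F3
import Vale.Agent.P235.V25.F4
import Vale.Agent.P235.V25.F5
import Vale.Agent.P235.V25.F6
import Vale.Agent.P235.V25.F7
import Vale.Agent.P235.V25.F8
import Vale.Agent.P235.V25.F9
import Vale.Agent.P235.V25.F10
import Vale.Agent.P235.V25.F11
import Vale.Agent.P235.V25.F12
import Vale.Agent.P235.V25.F13
import Vale.Agent.P235.V25.F14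
import Vale.Agent.P235.V25.F15
import Vale.Agent.P235.V25.F16
import Vale.Agent.P235.V25.F17
import Vale.Agent.P235.V25.F18
import Vale.Agent.P235.V25.F19
import Vale.Agent.P235.V25.F20
import Vale.Agent.P235.V25.F21
import Vale.Agent.P235.V25.F22
import Vale.Agent.P235.V25.F23
import Vale.Agent.P235.V25.F24
import Vale.Agent.P235.V25.F25
import Vale.Agent.P235.V25.F26
import Vale.Agent.P235.V25.F27
import Vale.Agent.P235.V25.F28
import Vale.Agent.P235.V25.F29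
import Vale.Agent.P235.V25.F30
import Vale.Agent.P235.V25.F31
import Vale.Agent.P235.V25.F32
import Vale.Agent.P235.V25.F33
import Vale.Agent.P235.V25.F34
import Vale.Agent.P235.V25.F35
import Vale.Agent.P235.V25.F36
import Vale.Agent.P235.V25.F37
import Vale.Agent.P235.V25.F38
import Vale.Agent.P235.V25.F39
import Vale.Agent.P235.V25.F40
import Vale.Agent.P235.V25.F41
import Vale.Agent.P235.V25.F42
import Vale.Agent.P235.V25.F43
import Vale.Agent.P235.V25.F44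
import Vale.Agent.P235.V25.F45
import Vale.Agent.P235.V25.F46
import Vale.Agent.P235.V25.F47
import Vale.Agent.P235.V25.F48
import Vale.Agent.P235.V25.F49
import Vale.Agent.P235.V25.F50
import Vale.Agent.P235.V25.F51

namespace Vale.Agent.P235.T25

theorem rA0 : Closed (rt (rootA 0 1) 0 0 0) :=
  (closed_split _ [0,0,0,-32,-32,0,0,32,-1] (closed_split _ [0,0,0,0,-32,-32,0,0,-1,32] (closed_split _ [0,0,0,85,0,-212] (closed_split _ [0,0,0,992,992,0,0,0,-33] (closed_split _ [0,0,0,0,340,-53] (closed_split _ [0,0,0,0,2720,-1152,0,0,85] (closed_split _ [0,0,0,0,-5440,1024,0,0,2635] (closed_split _ [64,64,0,-96,-192,-96,0,63,64,-3] (closed_split _ [0,0,0,2720,2720,-1024,0,-85,85] uA0_0 uA0_1) uA0_2) (closed_split _ [-32,0,-32,-32,0,1024,992,31] (closed_split _ [0,0,0,0,32,0,-32,-1] uA0_3 (closed_split _ [0,0,0,-224,0,352,0,168,0,-7] (closed_split _ [0,0,0,32,0,-32,0,0,0,-1] (closed_split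 _ [0,0,0,0,0,-288,0,0,0,7] uA0_4 uA0_5) (closed_split _ [0,0,0,32,0,-32,0,1,0,-1] uA0_6 (closed_split _ [0,0,0,448,-32,192,0,0,-1,-6] (closed_split _ [0,0,0,0,192,192,0,0,-1,-6] (closed_split _ [0,0,0,0,-96,-96,0,0,74,3] (closed_split _ [0,0,0,0,288,288,0,0,-5,-9] uA0_7 uA0_8) uA0_9) uA0_10) uA0_11))) uA0_12)) uA0_13)) uA0_14) uA0_15) uA0_16) (closed_split _ [0,0,0,992,992,0,0,0,-33] (closed_split _ [0,0,0,0,-32,0,-32,-1,32] uA0_17 (closed_split _ [0,0,0,0,-32,0,32,1,32] (closed_split _ [0,0,0,0,32,0,-32,-1,-1] uA0_18 (closed_split _ [32,0,32,-64,-224,-64,0,32,-7,32] (closed_split _ [0,0,0,69,-296] uA0_19 (closed_split _ [0,0,0,297,-64,0,0,0,-2] (closed_split _ [0,0,0,0,-1,0,0,0,1] (closed_split _ [0,96,96,0,-192,-192,-32,-1,96,96] (closed_split _ [0,0,0,32,0,0,0,-1] uA0_20 (closed_split _ [0,0,0,-256,-32,0,0,8,-1] (closed_split _ [0,0,0,6880,6880,0,0,-215,-2] (closed_split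 _ [0,0,0,6880,-64,7392,0,-215,-2] (closed_split _ [0,0,0,-96,-96,0,0,3,74] (closed_split _ [0,0,0,288,288,0,0,-9,-5] uA0_21 (closed_split _ [0,42,42,16,-32,48,0,-3,48,48] (closed_split _ [0,0,0,0,-64,0,0,0,31] uA0_22 (closed_split _ [-3,-3,0,96,160,-192,0,0,-483,432] (closed_split _ [0,0,0,114,-132,0,0,-1,32] uA0_23 uA0_24) uA0_25)) uA0_26)) uA0_27) uA0_28) uA0_29) uA0_30)) uA0_31) (closed_split _ [0,0,0,99,-93,0,0,0,71] (closed_split _ [0,0,0,32,32,0,0,-1,-32] uA0_32 (closed_split _ [0,0,0,23840,-13024,0,0,-151,151] uA0_33 uA0_34)) uA0_35)) uA0_36)) uA0_37)) uA0_38)) uA0_39)) (closed_split _ [0,0,0,31,32,-1,0,0,-32,-1] (closed_split _ [0,0,0,0,-32,0,32,1,32] (closed_split _ [0,0,0,0,256,0,-32,-1,-223] uA0_40 (closed_split _ [0,0,0,0,279,0,-64,-2] (closed_split _ [0,0,0,0,-1,0,0,0,1] (closed_split _ [0,0,0,32,0,0,0,-1] uA0_41 (closed_split _ [0,0,0,0,0,-32,-32,-1,0,32]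 uA0_42 (closed_split _ [-1,-1,0,32,-80,80,0,0,15,12] (closed_split _ [161,161,0,-5152,3184,1424,0,0,-2031,-1668] (closed_split _ [637,1405,768,-20384,14000,9808,-3072,-96,-9939,-7740] uA0_43 uA0_44) uA0_45) uA0_46))) uA0_47) (closed_split _ [0,0,0,0,31,-1,0,0,0,-1] (closed_split _ [0,32,32,0,960,-64,-128,-4,29,32] uA0_48 (closed_split _ [0,0,0,0,-32,-144,0,0,-1,144] (closed_split _ [0,0,0,32,0,0,0,-1] uA0_49 (closed_split _ [0,0,0,96,-112,0,0,-3,96] uA0_50 uA0_51)) uA0_52)) uA0_53))) uA0_54) uA0_55)) (closed_split _ [0,0,0,0,-1,0,0,0,1] (closed_split _ [0,0,0,0,-32,0,-32,-1,32] (closed_split _ [0,0,0,0,0,-32,-32,-1,0,32] (closed_split _ [0,16,16,0,-48,-32,-32,-1,16,16] (closed_split _ [0,0,0,0,-4,0,0,0,3] (closed_split _ [0,0,0,0,32,0,-32,-1] (closed_split _ [0,32,32,0,-64,-64,-224,-7,32,32] (closed_split _ [0,0,0,-32,0,0,-32,31] uA0_56 (closed_split _ [0,0,0,-1,0,0,0,1]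 (closed_split _ [63,72,-9,-216,-144,288,64,74,72] uA0_57 uA0_58) (closed_split _ [1652,1888,-236,1824,-3776,7552,1952,-3779,1888] (closed_split _ [63,72,-9,80,-144,288,64,-222,72] (closed_split _ [0,0,0,-204,0,1888,-32,31] uA0_59 uA0_60) uA0_61) uA0_62))) uA0_63) (closed_split _ [0,16,16,0,-112,-32,-32,-1,16,16] (closed_split _ [0,-32,-32,0,960,1024,0,0,31] (closed_split _ [0,0,0,32,0,-32,0,0,0,-1] uA0_64 uA0_65) uA0_66) uA0_67)) uA0_68) uA0_69) uA0_70) (closed_split _ [0,0,0,297,-64,0,0,0,-2] (closed_split _ [0,0,0,0,279,0,-64,-2] (closed_split _ [0,0,0,0,64,288,0,0,2,-9] uA0_71 (closed_split _ [0,0,0,-1,0,0,0,1] uA0_72 uA0_73)) uA0_74) uA0_75)) uA0_76))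

theorem rA1 : Closed (rt (rootA 0 1) 1 0 0) :=
  (closed_split _ [0,0,0,0,-32,0,-32,-1,32] (closed_split _ [0,0,0,2048,0,-4448,-4448,-139,0,4448] uA1_0 uA1_1) (closed_split _ [0,0,0,0,32,0,-32,-1,-32] uA1_2 (closed_split _ [0,0,0,-1,31,-32,0,-1,0,-1] uA1_3 (closed_split _ [288,288,0,-576,-1728,0,928,317,252] (closed_split _ [0,0,0,-32,-32,0,0,32,-1] (closed_split _ [32,0,32,-64,-224,-64,0,32,-7,32] (closed_split _ [0,0,0,0,0,-1,0,0,0,1] (closed_split _ [0,0,0,0,-32,-32,0,0,-1,32] uA1_4 (closed_split _ [9,0,9,-288,233,9,-64,-2,-233] (closed_split _ [1,0,1,-32,-31,1,0,0,31] (closed_split _ [1,0,1,0,1,1,0,-1,-1] uA1_5 uA1_6) uA1_7) (closed_split _ [0,0,0,0,-1,0,0,0,1] (closed_split _ [0,0,0,288,64,0,0,-9,2] uA1_8 (closed_split _ [0,224,224,-1440,-1568,-448,-320,35,224,224] uA1_9 (closed_split _ [0,0,0,288,288,0,0,-9,-5] uA1_10 uA1_11))) uA1_12))) uA1_13) uA1_14) uA1_15) uA1_16))))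

theorem rA2 : Closed (rt (rootA 0 1) 2 0 0) :=
  (closed_split _ [0,0,0,-32,-32,0,0,32,-1] (closed_split _ [0,0,0,0,0,-32,32,1,0,32] (closed_split _ [0,0,0,0,-32,-32,0,0,-1,32] (closed_split _ [0,0,0,-1,-1,0,0,-1,1] uA2_0 (closed_split _ [0,0,0,0,-32,0,-32,-1,32] uA2_1 (closed_split _ [32,32,0,-32,32,0,0,-31] (closed_split _ [-32,-32,0,-32,-32,0,0,33] (closed_split _ [-32,-32,0,0,0,0,0,32,-1] (closed_split _ [32,32,0,0,32,32,0,-32,0,-1] uA2_2 uA2_3) uA2_4) uA2_5) uA2_6))) (closed_split _ [0,0,0,0,-32,0,-32,-1,32] uA2_7 (closed_split _ [0,0,0,-32,-32,0,0,1,24] (closed_split _ [0,0,0,-32,32,0,0,1,-24] (closed_split _ [0,0,0,0,-4,-4,0,0,3,4] (closed_split _ [0,0,0,160,-96,64,0,-5,72] uA2_8 uA2_9) (closed_split _ [1,1,0,0,1,1,0,-1,0,-1] uA2_10 (closed_split _ [-7,31,24,224,155,-69,0,0,31,31] uA2_11 (closed_split _ [0,0,0,288,64,-224,0,-9,2,224] (closed_split _ [1,2,1,-32,-6,-2,0,0,1,1]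 uA2_12 uA2_13) uA2_14)))) uA2_15) uA2_16))) uA2_17) uA2_18)

theorem rA3 : Closed (rt (rootA 0 1) 0 1 0) :=
  (closed_split _ [0,0,0,-32,-32,0,0,32,-1] (closed_split _ [0,0,0,0,-32,-32,0,0,-1,32] uA3_0 uA3_1) (closed_split _ [0,0,0,0,-1,0,0,0,1] (closed_split _ [0,0,0,0,-32,0,-32,-1,32] (closed_split _ [0,0,0,0,0,-32,-32,-1,0,32] uA3_2 (closed_split _ [0,0,0,224,-32,0,32,-223,-1] uA3_3 (closed_split _ [0,0,0,0,297,0,-64,-2] (closed_split _ [0,0,0,-144,-32,0,0,144,-1] uA3_4 uA3_5) uA3_6))) uA3_7) uA3_8))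

theorem rA4 : Closed (rt (rootA 0 1) 1 1 0) :=
  (closed_split _ [0,0,0,0,-32,-32,0,0,-1,32] (closed_split _ [0,0,0,-32,-32,0,0,32,-1] uA4_0 uA4_1) (closed_split _ [0,0,0,0,-32,256,0,0,-1,-256] uA4_2 (closed_split _ [0,0,0,0,-32,0,-32,-1,32] uA4_3 uA4_4)))

theorem rA5 : Closed (rt (rootA 0 1) 2 1 0) :=
  (closed_split _ [0,8,8,0,-48,240,0,0,7,-248] (closed_split _ [0,0,0,0,0,-32,32,1,0,32] (closed_split _ [0,0,0,-32,0,0,-32,31] uA5_0 uA5_1) uA5_2) (closed_split _ [0,0,0,-32,-32,0,0,32,-1] uA5_3 (closed_split _ [0,0,0,0,-32,0,-32,-1,32] (closed_split _ [0,0,0,2048,0,-4448,-4448,-139,0,4448] uA5_4 uA5_5) uA5_6)))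

theorem rA6 : Closed (rt (rootA 0 1) 0 2 0) :=
  uA6_0

theorem rA7 : Closed (rt (rootA 0 1) 1 2 0) :=
  uA7_0

theorem rA8 : Closed (rt (rootA 0 1) 2 2 0) :=
  uA8_0

theorem rA9 : Closed (rt (rootA 0 1) 0 0 1) :=
  (closed_split _ [0,0,0,32,32,0,0,-1,-32] (closed_split _ [0,0,0,0,256,0,-32,-1,-256] uA9_0 (closed_split _ [0,0,0,-32,0,0,-32,31] uA9_1 (closed_split _ [0,0,0,-1,0,0,0,1] (closed_split _ [0,0,0,0,-1,0,0,0,1] (closed_split _ [72,72,0,-144,368,0,-288,63,88] uA9_2 uA9_3) uA9_4) (closed_split _ [0,0,0,-215,0,297,-64,213] (closed_split _ [0,0,0,-2,-4,0,0,1,4] (closed_split _ [0,0,0,-112,-144,0,-32,111,144] (closed_split _ [0,0,0,32,0,32,0,-32,0,-1] uA9_5 uA9_6) uA9_7) uA9_8) uA9_9)))) (closed_split _ [0,0,0,0,-32,0,-32,-1,32] uA9_10 (closed_split _ [0,0,0,-32,0,0,-32,31] (closed_split _ [0,0,0,0,32,0,-32,-1,-1] uA9_11 (closed_split _ [1,1,0,-2,-7,0,0,1,1] uA9_12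 (closed_split _ [0,0,0,0,0,-144,-32,-1,0,144] (closed_split _ [0,0,0,0,0,288,64,2,0,-9] uA9_13 (closed_split _ [0,0,0,0,6944,6880,-64,-2,0,-215] uA9_14 uA9_15)) uA9_16))) (closed_split _ [0,0,0,-1,0,0,0,1] uA9_17 uA9_18))))

theorem rA10 : Closed (rt (rootA 0 1) 1 0 1) :=
  (closed_split _ [0,0,0,0,1,0,0,0,-1] uA10_0 (closed_split _ [0,0,0,0,-32,0,-32,-1,32] uA10_1 uA10_2))

theorem rA11 : Closed (rt (rootA 0 1) 2 0 1) :=
  uA11_0

theorem rA12 : Closed (rt (rootA 0 1) 0 1 1) :=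
  uA12_0

theorem rA13 : Closed (rt (rootA 0 1) 1 1 1) :=
  (closed_split _ [0,8,8,0,240,-16,-32,-1,-248,8] uA13_0 uA13_1)

theorem rA14 : Closed (rt (rootA 0 1) 2 1 1) :=
  (closed_split _ [0,0,0,0,0,1,0,0,0,-1] uA14_0 (closed_split _ [0,0,0,-32,-32,0,0,32,-1] uA14_1 (closed_split _ [0,0,0,2048,-4640,0,-4640,-145,4640] uA14_2 uA14_3)))

theorem rA15 : Closed (rt (rootA 0 1) 0 2 1) :=
  uA15_0

theorem rA16 : Closed (rt (rootA 0 1) 1 2 1) :=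
  uA16_0

theorem rA17 : Closed (rt (rootA 0 1) 2 2 1) :=
  uA17_0

theorem rA18 : Closed (rt (rootA 0 1) 0 0 2) :=
  (closed_split _ [0,0,0,0,1,0,0,0,-1] (closed_split _ [0,0,0,0,-32,0,32,1,32] (closed_split _ [0,0,0,-32,0,0,-32,31] uA18_0 (closed_split _ [0,0,0,0,-32,-32,0,0,32,1] (closed_split _ [0,0,0,32,0,32,0,0,0,-1] uA18_1 (closed_split _ [1,0,1,1,1,0,0,0,-1,-1] uA18_2 (closed_split _ [32,0,32,32,0,-32,0,0,0,-31] uA18_3 uA18_4))) uA18_5)) uA18_6) (closed_split _ [0,0,0,0,-32,0,-32,-1,32] uA18_7 (closed_split _ [0,0,0,-224,0,352,0,224,0,-7] (closed_split _ [0,0,0,-32,0,0,-32,31] uA18_8 (closed_split _ [0,0,0,-224,0,288,64,226,0,-9] uA18_9 (closed_split _ [9,0,9,-224,0,-288,-64,231] (closed_split _ [-9,0,-9,-224,64,288,0,215] uA18_10 (closed_split _ [0,64,64,-992,1056,-2048,0,-31,-992] (closed_split _ [0,-2,-2,31,-33,64,0,31,31] uA18_11 uA18_12) uA18_13)) uA18_14)))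 (closed_split _ [-9,0,-9,-224,64,288,0,215] uA18_15 (closed_split _ [0,64,64,-992,1056,-2048,0,-31,-992] (closed_split _ [217,223,-56,992,-800,1792,0,248,527] uA18_16 uA18_17) uA18_18)))))

theorem rA19 : Closed (rt (rootA 0 1) 1 0 2) :=
  (closed_split _ [0,0,0,0,1,0,0,0,-1] uA19_0 uA19_1)

theorem rA20 : Closed (rt (rootA 0 1) 2 0 2) :=
  uA20_0

theorem rA21 : Closed (rt (rootA 0 1) 0 1 2) :=
  uA21_0

theorem rA22 : Closed (rt (rootA 0 1) 1 1 2) :=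
  uA22_0

theorem rA23 : Closed (rt (rootA 0 1) 2 1 2) :=
  uA23_0

theorem rA24 : Closed (rt (rootA 0 1) 0 2 2) :=
  uA24_0

theorem rA25 : Closed (rt (rootA 0 1) 1 2 2) :=
  uA25_0

theorem rA26 : Closed (rt (rootA 0 1) 2 2 2) :=
  uA26_0

theorem rB0 : Closed (rt (rootB 0 1) 0 0 0) :=
  (closed_split _ [0,0,0,256,-32,0,0,-256,-1] uB0_0 (closed_split _ [0,0,0,0,-32,-32,0,0,32,-1] uB0_1 (closed_split _ [8,8,0,-16,208,0,0,8,-249] (closed_split _ [0,0,0,0,32,-32,0,0,-32,-1] uB0_2 (closed_split _ [0,0,0,0,64,0,-64,-2,215] uB0_3 uB0_4)) uB0_5)))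

theorem rB1 : Closed (rt (rootB 0 1) 1 0 0) :=
  (closed_split _ [0,0,0,-1,0,0,0,1] (closed_split _ [0,0,0,0,-16,0,0,0,13] uB1_0 (closed_split _ [8,8,0,-16,240,-32,0,8,-248,-1] uB1_1 uB1_2)) uB1_3)

theorem rB2 : Closed (rt (rootB 0 1) 2 0 0) :=
  uB2_0

theorem rB3 : Closed (rt (rootB 0 1) 0 1 0) :=
  (closed_split _ [0,0,0,0,-32,-32,0,0,-1,32] (closed_split _ [0,0,0,-32,32,0,0,32,1] uB3_0 uB3_1) uB3_2)

theorem rB4 : Closed (rt (rootB 0 1) 1 1 0) :=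
  (closed_split _ [0,0,0,1,0,0,0,-1] uB4_0 (closed_split _ [0,0,0,0,-144,0,-32,-1,144] uB4_1 uB4_2))

theorem rB5 : Closed (rt (rootB 0 1) 2 1 0) :=
  (closed_split _ [0,0,0,0,0,1,0,0,0,-1] uB5_0 uB5_1)

theorem rB6 : Closed (rt (rootB 0 1) 0 2 0) :=
  uB6_0

theorem rB7 : Closed (rt (rootB 0 1) 1 2 0) :=
  uB7_0

theorem rB8 : Closed (rt (rootB 0 1) 2 2 0) :=
  uB8_0

theorem rB9 : Closed (rt (rootB 0 1) 0 0 1) :=
  (closed_split _ [0,0,0,1,0,0,0,-1] uB9_0 uB9_1)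

theorem rB10 : Closed (rt (rootB 0 1) 1 0 1) :=
  (closed_split _ [0,8,8,0,240,-16,-32,-1,-248,8] uB10_0 uB10_1)

theorem rB11 : Closed (rt (rootB 0 1) 2 0 1) :=
  uB11_0

theorem rB12 : Closed (rt (rootB 0 1) 0 1 1) :=
  (closed_split _ [0,0,0,0,1,0,0,0,-1] uB12_0 (closed_split _ [8,0,8,240,-32,-16,0,-248,-1,8] (closed_split _ [0,0,0,256,0,0,-32,-257] uB12_1 (closed_split _ [32,32,0,-64,-128,0,0,32,31] uB12_2 (closed_split _ [0,0,0,256,32,0,0,-256,1] uB12_3 uB12_4))) (closed_split _ [0,0,0,0,297,0,-64,-2] uB12_5 uB12_6)))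

theorem rB13 : Closed (rt (rootB 0 1) 1 1 1) :=
  (closed_split _ [0,0,0,0,1,0,0,0,-1] uB13_0 (closed_split _ [0,0,0,-1,0,0,0,1] (closed_split _ [0,0,0,0,0,-144,-32,-1,0,144] (closed_split _ [0,0,0,0,0,32,0,0,0,-1] uB13_1 uB13_2) uB13_3) uB13_4))

theorem rB14 : Closed (rt (rootB 0 1) 2 1 1) :=
  (closed_split _ [0,0,0,0,1,2,0,0,0,-2] uB14_0 uB14_1)

theorem rB15 : Closed (rt (rootB 0 1) 0 2 1) :=
  (closed_split _ [0,0,0,-32,32,0,0,32,1] (closed_split _ [0,0,0,32,0,-32,0,-1,0,-1] (closed_split _ [0,0,0,0,-64,0,0,0,31] uB15_0 (closed_split _ [0,0,0,-3,93,-80,0,-3,0,3] uB15_1 uB15_2)) uB15_3) uB15_4)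

theorem rB16 : Closed (rt (rootB 0 1) 1 2 1) :=
  uB16_0

theorem rB17 : Closed (rt (rootB 0 1) 2 2 1) :=
  uB17_0

theorem rB18 : Closed (rt (rootB 0 1) 0 0 2) :=
  uB18_0

theorem rB19 : Closed (rt (rootB 0 1) 1 0 2) :=
  uB19_0

theorem rB20 : Closed (rt (rootB 0 1) 2 0 2) :=
  uB20_0

theorem rB21 : Closed (rt (rootB 0 1) 0 1 2) :=
  uB21_0

theorem rB22 : Closed (rt (rootB 0 1) 1 1 2) :=
  uB22_0

theorem rB23 : Closed (rt (rootB 0 1) 2 1 2) :=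
  uB23_0

theorem rB24 : Closed (rt (rootB 0 1) 0 2 2) :=
  uB24_0

theorem rB25 : Closed (rt (rootB 0 1) 1 2 2) :=
  uB25_0

theorem rB26 : Closed (rt (rootB 0 1) 2 2 2) :=
  uB26_0

theorem closedA : Closed (rootA 0 1) := closed_rt _ (by
  intro t0 h0 t1 h1 t2 h2
  interval_cases t0 <;> interval_cases t1 <;> interval_cases t2
  exacts [rA0, rA9, rA18, rA3, rA12, rA21, rA6, rA15, rA24, rA1, rA10, rA19, rA4, rA13, rA22, rA7, rA16, rA25, rA2, rA11, rA20, rA5, rA14, rA23, rA8, rA17, rA26])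

theorem closedB : Closed (rootB 0 1) := closed_rt _ (by
  intro t0 h0 t1 h1 t2 h2
  interval_cases t0 <;> interval_cases t1 <;> interval_cases t2
  exacts [rB0, rB9, rB18, rB3, rB12, rB21, rB6, rB15, rB24, rB1, rB10, rB19, rB4, rB13, rB22, rB7, rB16, rB25, rB2, rB11, rB20, rB5, rB14, rB23, rB8, rB17, rB26])

theorem core25 : Core (SyL 0 1) := coreOf 0 1 closedA closedB

end Vale.Agent.P235.T25
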